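import Vale.Agent.P109.F674.Model
import Mathlib.MeasureTheory.Constructions.BorelSpace.Basic
import Mathlib.MeasureTheory.Integral.Lebesgue.Basic
import Mathlib.MeasureTheory.Measure.Restrict
import Mathlib.MeasureTheory.Integral.IntegrableOn
import Mathlib.MeasureTheory.Measure.WithDensity

/-! Measures of images of sets under the inverse charts (block S4: VOL and MEAS). -/

open MeasureTheory Set
open scoped ContDiff Manifold

namespace Vale.Agent.P109.H742

open Vale.Agent.P109.Smooth

/-- A function continuous on a measurable set has measurable preimages there. -/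
theorem measurableSet_inter_preimage {X Y : Type*} [TopologicalSpace X] [MeasurableSpace X]
    [OpensMeasurableSpace X] [TopologicalSpace Y] [MeasurableSpace Y] [BorelSpace Y]
    {f : X → Y} {s : Set X} (hf : ContinuousOn f s) (hs : MeasurableSet s)
    {B : Set Y} (hB : MeasurableSet B) : MeasurableSet (s ∩ f ⁻¹' B) := by
  have h1 : Measurable (s.domRestrict f) := hf.domRestrict.measurable
  have h2 : MeasurableSet ((s.domRestrict f) ⁻¹' B) := h1 hB
  have h3 := hs.subtype_image h2
  convert h3 using 1
  ext z
  simp only [mem_inter_iff, mem_preimage, mem_image, Subtype.exists,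
    exists_and_right, exists_eq_right]
  constructor
  · rintro ⟨a, b⟩
    exact ⟨a, b⟩
  · rintro ⟨a, b⟩
    exact ⟨a, b⟩

/-- The extension of a continuous function on a measurable set by a constant is measurable. -/
theorem measurable_ite_const {X Y : Type*} [TopologicalSpace X] [MeasurableSpace X]
    [OpensMeasurableSpace X] [TopologicalSpace Y] [MeasurableSpace Y] [BorelSpace Y]
    {f : X → Y} {s : Set X} (hf : ContinuousOn f s) (hs : MeasurableSet s) (y : Y)
    [∀ x, Decidable (x ∈ s)] : Measurable (fun x => if x ∈ s then f x else y) := by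
  intro B hB
  have h1 := measurableSet_inter_preimage hf hs hB
  have h2 : MeasurableSet (sᶜ ∩ (fun _ => y) ⁻¹' B) :=
    hs.compl.inter (measurable_const hB)
  convert h1.union h2 using 1
  ext z
  by_cases hz : z ∈ s <;> simp [hz]

variable {d : ℕ} {H : Type} [TopologicalSpace H]
  (I : ModelWithCorners ℝ (EuclideanSpace ℝ (Fin d)) H)

section top

variable {M : Type} [TopologicalSpace M]

theorem extend_target_measurable (e : OpenPartialHomeomorph M H) :
    MeasurableSet (e.extend I).target := by
  rw [e.extend_target]
  exact ((e.open_target.preimage I.continuous_symm).measurableSet).inter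
    I.isClosed_range.measurableSet

theorem extend_symm_image_eq (e : OpenPartialHomeomorph M H)
    {B : Set (EuclideanSpace ℝ (Fin d))} (hB : B ⊆ (e.extend I).target) :
    (e.extend I).symm '' B = e.source ∩ (e.extend I) ⁻¹' B := by
  ext z
  constructor
  · rintro ⟨x, hx, rfl⟩
    have h1 := (e.extend I).map_target (hB hx)
    rw [e.extend_source] at h1
    refine ⟨h1, ?_⟩
    rw [mem_preimage, (e.extend I).right_inv (hB hx)]
    exact hx
  · rintro ⟨h1, h2⟩
    refine ⟨(e.extend I) z, h2, ?_⟩
    exact (e.extend I).left_inv (by rwa [e.extend_source])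

theorem continuousOn_extend' (e : OpenPartialHomeomorph M H) :
    ContinuousOn (e.extend I) e.source := by
  have := e.continuousOn_extend (I := I)
  simpa using this

variable [MeasurableSpace M] [BorelSpace M]

/-- Inverse images of measurable sets under a chart are measurable. -/
theorem extend_preimage_measurable (e : OpenPartialHomeomorph M H)
    {B : Set (EuclideanSpace ℝ (Fin d))} (hB : MeasurableSet B) :
    MeasurableSet (e.source ∩ (e.extend I) ⁻¹' B) :=
  measurableSet_inter_preimage (continuousOn_extend' I e) e.open_source.measurableSet hB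

theorem extend_symm_image_measurable (e : OpenPartialHomeomorph M H)
    {B : Set (EuclideanSpace ℝ (Fin d))} (hB : B ⊆ (e.extend I).target) (hBm : MeasurableSet B) :
    MeasurableSet ((e.extend I).symm '' B) := by
  rw [extend_symm_image_eq I e hB]
  exact extend_preimage_measurable I e hBm

theorem extend_image_measurable (e : OpenPartialHomeomorph M H)
    {P : Set M} (hP : P ⊆ e.source) (hPm : MeasurableSet P) :
    MeasurableSet ((e.extend I) '' P) := by
  have himg : (e.extend I) '' P = (e.extend I).target ∩ (e.extend I).symm ⁻¹' P := by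
    ext x
    constructor
    · rintro ⟨z, hz, rfl⟩
      have hz' : z ∈ (e.extend I).source := by rw [e.extend_source]; exact hP hz
      exact ⟨(e.extend I).map_source hz', by rwa [mem_preimage, (e.extend I).left_inv hz']⟩
    · rintro ⟨h1, h2⟩
      exact ⟨(e.extend I).symm x, h2, (e.extend I).right_inv h1⟩
  rw [himg]
  exact measurableSet_inter_preimage e.continuousOn_extend_symm
    (extend_target_measurable I e) hPm

end top

variable {M : Type} [TopologicalSpace M] [ChartedSpace H M] [MeasurableSpace M] [BorelSpace M]

/-- (VOL) for a chart of the atlas. -/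
theorem vol_atlas {ν : Measure M} (hν : SmoothPositiveVolume I M ν)
    {e : OpenPartialHomeomorph M H} (he : e ∈ atlas H M) :
    ∃ ρ : EuclideanSpace ℝ (Fin d) → ℝ, ContDiffOn ℝ ∞ ρ (e.extend I).target ∧
      (∀ x ∈ (e.extend I).target, 0 < ρ x) ∧
      ∀ B ⊆ (e.extend I).target, MeasurableSet B →
        MeasurableSet ((e.extend I).symm '' B) ∧
          ν ((e.extend I).symm '' B) = ∫⁻ x in B, ENNReal.ofReal (ρ x) := by
  obtain ⟨ρ, h1, h2, h3⟩ := hν e he
  refine ⟨ρ, h1, h2, fun B hB hBm => ⟨extend_symm_image_measurable I e hB hBm, ?_⟩⟩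
  have hae : AEMeasurable (e.extend I) (ν.restrict e.source) :=
    (continuousOn_extend' I e).aemeasurable e.open_source.measurableSet
  calc ν ((e.extend I).symm '' B) = ν (e.source ∩ (e.extend I) ⁻¹' B) := by
        rw [extend_symm_image_eq I e hB]
    _ = (ν.restrict e.source) ((e.extend I) ⁻¹' B) := by
        rw [Measure.restrict_apply' e.open_source.measurableSet, inter_comm]
    _ = ((ν.restrict e.source).map (e.extend I)) B := by
        rw [Measure.map_apply_of_aemeasurable hae hBm]
    _ = ((volume.restrict (e.extend I).target).withDensity (fun x => ENNReal.ofReal (ρ x))) B := by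
        rw [h3]
    _ = ∫⁻ x in B, ENNReal.ofReal (ρ x) ∂(volume.restrict (e.extend I).target) := by
        rw [withDensity_apply _ hBm]
    _ = ∫⁻ x in B, ENNReal.ofReal (ρ x) := by
        rw [Measure.restrict_restrict hBm, inter_eq_self_of_subset_left hB]

/-- (VOL) -/
theorem vol {ν : Measure M} (hν : SmoothPositiveVolume I M ν) (c : M) :
    ∃ ρ : EuclideanSpace ℝ (Fin d) → ℝ, ContDiffOn ℝ ∞ ρ (extChartAt I c).target ∧
      (∀ x ∈ (extChartAt I c).target, 0 < ρ x) ∧
      ∀ B ⊆ (extChartAt I c).target, MeasurableSet B →
        MeasurableSet ((extChartAt I c).symm '' B) ∧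
          ν ((extChartAt I c).symm '' B) = ∫⁻ x in B, ENNReal.ofReal (ρ x) :=
  vol_atlas I hν (chart_mem_atlas H c)

omit [MeasurableSpace M] [BorelSpace M] in
theorem extChartAt_target_measurable (c : M) : MeasurableSet (extChartAt I c).target :=
  extend_target_measurable I (chartAt H c)

/-- (MEAS1) -/
theorem extChartAt_image_measurable (c : M) {P : Set M} (hP : P ⊆ (chartAt H c).source)
    (hPm : MeasurableSet P) : MeasurableSet ((extChartAt I c) '' P) :=
  extend_image_measurable I (chartAt H c) hP hPm

theorem extChartAt_preimage_measurable (c : M) {B : Set (EuclideanSpace ℝ (Fin d))}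
    (hB : MeasurableSet B) : MeasurableSet ((chartAt H c).source ∩ (extChartAt I c) ⁻¹' B) :=
  extend_preimage_measurable I (chartAt H c) hB

omit [MeasurableSpace M] [BorelSpace M] in
theorem extChartAt_symm_image_eq (c : M) {B : Set (EuclideanSpace ℝ (Fin d))}
    (hB : B ⊆ (extChartAt I c).target) :
    (extChartAt I c).symm '' B = (chartAt H c).source ∩ (extChartAt I c) ⁻¹' B :=
  extend_symm_image_eq I (chartAt H c) hB

open Classical in
/-- (MEAS2) -/
theorem measurable_extChartAt_ite (c : M) {P : Set M} (hP : P ⊆ (chartAt H c).source)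
    (hPm : MeasurableSet P) :
    Measurable (fun z => if z ∈ P then extChartAt I c z else (0 : EuclideanSpace ℝ (Fin d))) := by
  have hc : ContinuousOn (extChartAt I c) P := by
    refine (continuousOn_extChartAt c).mono ?_
    rw [extChartAt_source]
    exact hP
  exact measurable_ite_const hc hPm 0

open Classical in
/-- Measurability of the inverse chart, extended by a constant. -/
theorem measurable_extChartAt_symm_ite (c : M) (z0 : M)
    {B : Set (EuclideanSpace ℝ (Fin d))} (hB : B ⊆ (extChartAt I c).target)
    (hBm : MeasurableSet B) :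
    Measurable (fun x => if x ∈ B then (extChartAt I c).symm x else z0) := by
  have hc : ContinuousOn (extChartAt I c).symm B :=
    (continuousOn_extChartAt_symm c).mono hB
  exact measurable_ite_const hc hBm z0

end Vale.Agent.P109.H742
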