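import Vale.Agent.P109.H742.Vol
import Mathlib.Analysis.Calculus.MeanValue
import Mathlib.Analysis.Calculus.ContDiff.Basic

/-! Bounds of the densities on compact subsets of charts; measure of the collar (block S4). -/

open MeasureTheory Set Metric
open scoped ContDiff Manifold

namespace Vale.Agent.P109.H742

open Vale.Agent.P109.Smooth

variable {d : ℕ} {H : Type} [TopologicalSpace H]
  (I : ModelWithCorners ℝ (EuclideanSpace ℝ (Fin d)) H)

section top

variable {M : Type} [TopologicalSpace M] [ChartedSpace H M]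

theorem isCompact_extChartAt_image {K : Set M} (hK : IsCompact K) {c : M}
    (hKc : K ⊆ (chartAt H c).source) : IsCompact (extChartAt I c '' K) := by
  refine hK.image_of_continuousOn ((continuousOn_extChartAt c).mono ?_)
  rw [extChartAt_source]
  exact hKc

theorem extChartAt_image_subset_target {K : Set M} {c : M}
    (hKc : K ⊆ (chartAt H c).source) : extChartAt I c '' K ⊆ (extChartAt I c).target := by
  rintro _ ⟨z, hz, rfl⟩
  exact (extChartAt I c).map_source (by rw [extChartAt_source]; exact hKc hz)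

/-- (DENS) -/
theorem dens_bounds {K : Set M} (hK : IsCompact K) {c : M} (hKc : K ⊆ (chartAt H c).source)
    {ρ : EuclideanSpace ℝ (Fin d) → ℝ} (hρ : ContDiffOn ℝ ∞ ρ (extChartAt I c).target)
    (hpos : ∀ x ∈ (extChartAt I c).target, 0 < ρ x) :
    ∃ N : ℝ, 1 ≤ N ∧ (∀ y ∈ extChartAt I c '' K, N⁻¹ ≤ ρ y ∧ ρ y ≤ N) ∧
      ∀ y y', segment ℝ y y' ⊆ extChartAt I c '' K → |ρ y - ρ y'| ≤ N * ‖y - y'‖ := by
  set K' : Set (EuclideanSpace ℝ (Fin d)) := extChartAt I c '' K with hK'def
  have hK' : IsCompact K' := isCompact_extChartAt_image I hK hKc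
  have hsub : K' ⊆ (extChartAt I c).target := extChartAt_image_subset_target I hKc
  have hcont : ContinuousOn ρ K' := (hρ.continuousOn).mono hsub
  obtain ⟨C1, hC1⟩ := hK'.exists_bound_of_continuousOn hcont
  have hcinv : ContinuousOn (fun y => (ρ y)⁻¹) K' :=
    hcont.inv₀ (fun y hy => (hpos y (hsub hy)).ne')
  obtain ⟨C2, hC2⟩ := hK'.exists_bound_of_continuousOn hcinv
  have hu : UniqueDiffOn ℝ (extChartAt I c).target := uniqueDiffOn_extChartAt_target c
  have hder : ContinuousOn (fderivWithin ℝ ρ (extChartAt I c).target) (extChartAt I c).target :=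
    hρ.continuousOn_fderivWithin hu (by simp)
  obtain ⟨C3, hC3⟩ := hK'.exists_bound_of_continuousOn (hder.mono hsub)
  refine ⟨max 1 (max C1 (max C2 C3)), le_max_left _ _, ?_, ?_⟩
  · intro y hy
    have hp := hpos y (hsub hy)
    have h1 := hC1 y hy
    have h2 := hC2 y hy
    rw [Real.norm_eq_abs, abs_of_pos hp] at h1
    rw [Real.norm_eq_abs, abs_of_pos (inv_pos.mpr hp)] at h2
    constructor
    · rw [inv_le_comm₀ (lt_of_lt_of_le one_pos (le_max_left _ _)) hp]
      exact h2.trans ((le_max_left _ _).trans ((le_max_right _ _).trans (le_max_right _ _)))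
    · exact h1.trans ((le_max_left _ _).trans (le_max_right _ _))
  · intro y y' hseg
    have hd : ∀ x ∈ segment ℝ y' y, HasFDerivWithinAt ρ
        (fderivWithin ℝ ρ (extChartAt I c).target x) (segment ℝ y' y) x := by
      intro x hx
      rw [segment_symm] at hx
      have hxt := hsub (hseg hx)
      have := ((hρ.differentiableOn (by simp)) x hxt).hasFDerivWithinAt
      exact this.mono (by rw [segment_symm]; exact hseg.trans hsub)
    have hb : ∀ x ∈ segment ℝ y' y, ‖fderivWithin ℝ ρ (extChartAt I c).target x‖ ≤ C3 := by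
      intro x hx
      rw [segment_symm] at hx
      exact hC3 x (hseg hx)
    have := (convex_segment y' y).norm_image_sub_le_of_norm_hasFDerivWithin_le hd hb
      (left_mem_segment ℝ y' y) (right_mem_segment ℝ y' y)
    rw [Real.norm_eq_abs] at this
    refine this.trans ?_
    refine mul_le_mul_of_nonneg_right ?_ (norm_nonneg _)
    exact (le_max_right _ _).trans ((le_max_right _ _).trans (le_max_right _ _))

end top

variable {M : Type} [TopologicalSpace M] [ChartedSpace H M] [MeasurableSpace M] [BorelSpace M]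

/-- (COLM) -/
theorem collar_measure {ν : Measure M} (hν : SmoothPositiveVolume I M ν)
    (hcol : ∀ R : ℝ, ∃ C : ℝ, 0 ≤ C ∧ ∀ s : ℝ, 0 < s →
      volume {x : EuclideanSpace ℝ (Fin d) | ‖x‖ ≤ R ∧ x ∈ range I ∧
        ¬ closedBall x s ⊆ interior (range I)} ≤ ENNReal.ofReal (C * s))
    {K : Set M} (hK : IsCompact K) {c : M} (hKc : K ⊆ (chartAt H c).source) :
    ∃ C : ℝ, 0 ≤ C ∧ ∀ s : ℝ, 0 < s →
      ν {z | z ∈ K ∧ ¬ closedBall (extChartAt I c z) s ⊆ interior (range I)} ≤
        ENNReal.ofReal (C * s) := by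
  obtain ⟨ρ, hρ1, hρ2, hρ3⟩ := vol I hν c
  obtain ⟨N, hN1, hN2, -⟩ := dens_bounds I hK hKc hρ1 hρ2
  set K' : Set (EuclideanSpace ℝ (Fin d)) := extChartAt I c '' K with hK'def
  have hK' : IsCompact K' := isCompact_extChartAt_image I hK hKc
  have hsub : K' ⊆ (extChartAt I c).target := extChartAt_image_subset_target I hKc
  obtain ⟨R, hR⟩ := hK'.isBounded.exists_norm_le
  obtain ⟨C, hC0, hC⟩ := hcol R
  refine ⟨N * C, mul_nonneg (zero_le_one.trans hN1) hC0, fun s hs => ?_⟩
  set T : Set (EuclideanSpace ℝ (Fin d)) := {x | ‖x‖ ≤ R ∧ x ∈ range I ∧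
        ¬ closedBall x s ⊆ interior (range I)} with hT
  set B : Set (EuclideanSpace ℝ (Fin d)) := K' ∩ toMeasurable volume T with hB
  have hBm : MeasurableSet B := hK'.measurableSet.inter (measurableSet_toMeasurable _ _)
  have hBt : B ⊆ (extChartAt I c).target := inter_subset_left.trans hsub
  have hcover : {z | z ∈ K ∧ ¬ closedBall (extChartAt I c z) s ⊆ interior (range I)} ⊆
      (extChartAt I c).symm '' B := by
    rintro z ⟨hzK, hz⟩
    have hzs : z ∈ (extChartAt I c).source := by rw [extChartAt_source]; exact hKc hzK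
    refine ⟨extChartAt I c z, ⟨mem_image_of_mem _ hzK, subset_toMeasurable _ _ ?_⟩,
      (extChartAt I c).left_inv hzs⟩
    refine ⟨hR _ (mem_image_of_mem _ hzK), ?_, hz⟩
    have := (extChartAt I c).map_source hzs
    rw [extChartAt_target] at this
    exact this.2
  calc ν {z | z ∈ K ∧ ¬ closedBall (extChartAt I c z) s ⊆ interior (range I)}
      ≤ ν ((extChartAt I c).symm '' B) := measure_mono hcover
    _ = ∫⁻ x in B, ENNReal.ofReal (ρ x) := (hρ3 B hBt hBm).2
    _ ≤ ∫⁻ _ in B, ENNReal.ofReal N := by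
        refine setLIntegral_mono measurable_const fun x hx => ?_
        exact ENNReal.ofReal_le_ofReal (hN2 x hx.1).2
    _ = ENNReal.ofReal N * volume B := by
        rw [setLIntegral_const]
    _ ≤ ENNReal.ofReal N * volume T := by
        refine mul_le_mul_right ?_ _
        exact (measure_mono (inter_subset_right : B ⊆ toMeasurable volume T)).trans
          (measure_toMeasurable (μ := volume) T).le
    _ ≤ ENNReal.ofReal N * ENNReal.ofReal (C * s) := by
        gcongr
        exact hC s hs
    _ = ENNReal.ofReal (N * C * s) := by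
        rw [← ENNReal.ofReal_mul (zero_le_one.trans hN1), mul_assoc]

end Vale.Agent.P109.H742
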