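import Mathlib.Geometry.Manifold.Instances.Real
import Mathlib.MeasureTheory.Measure.Haar.InnerProductSpace
import Mathlib.MeasureTheory.Measure.Lebesgue.Basic

/-! The collar of the boundary of the half space has small volume (block S4: COL). -/

open MeasureTheory Set Metric
open scoped ContDiff Manifold

namespace Vale.Agent.P109.H742

/-- volume of a slab in a ball -/
theorem slab_volume (d : ℕ) [NeZero d] (R : ℝ) :
    ∃ C : ℝ, 0 ≤ C ∧ ∀ s : ℝ, 0 < s →
      volume {x : EuclideanSpace ℝ (Fin d) | ‖x‖ ≤ R ∧ 0 ≤ x 0 ∧ x 0 ≤ s} ≤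
        ENNReal.ofReal (C * s) := by
  refine ⟨∏ i ∈ Finset.univ.erase (0 : Fin d), (2 * |R|), by positivity, fun s hs => ?_⟩
  set a : Fin d → ℝ := fun i => if i = 0 then 0 else -|R| with ha
  set b : Fin d → ℝ := fun i => if i = 0 then s else |R| with hb
  have hsub : {x : EuclideanSpace ℝ (Fin d) | ‖x‖ ≤ R ∧ 0 ≤ x 0 ∧ x 0 ≤ s} ⊆
      (@WithLp.ofLp 2 (Fin d → ℝ)) ⁻¹' (Icc a b) := by
    rintro x ⟨h1, h2, h3⟩
    have hc : ∀ i, |x i| ≤ |R| := fun i => by
      have := (PiLp.norm_apply_le x i).trans (h1.trans (le_abs_self R))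
      rwa [Real.norm_eq_abs] at this
    rw [mem_preimage, mem_Icc]
    constructor
    · intro i
      by_cases hi : i = 0
      · subst hi; simpa [ha] using h2
      · simp only [ha, hi, if_false]
        exact (abs_le.mp (hc i)).1
    · intro i
      by_cases hi : i = 0
      · subst hi; simpa [hb] using h3
      · simp only [hb, hi, if_false]
        exact (abs_le.mp (hc i)).2
  refine (measure_mono hsub).trans ?_
  rw [(PiLp.volume_preserving_ofLp (Fin d)).measure_preimage measurableSet_Icc.nullMeasurableSet,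
    Real.volume_Icc_pi, ← ENNReal.ofReal_prod_of_nonneg]
  · refine ENNReal.ofReal_le_ofReal (le_of_eq ?_)
    rw [← Finset.mul_prod_erase Finset.univ _ (Finset.mem_univ (0 : Fin d))]
    have e1 : ∏ i ∈ Finset.univ.erase (0 : Fin d), (b i - a i) =
        ∏ i ∈ Finset.univ.erase (0 : Fin d), (2 * |R|) := by
      refine Finset.prod_congr rfl fun i hi => ?_
      have : i ≠ 0 := Finset.ne_of_mem_erase hi
      simp only [ha, hb, this, if_false]
      ring
    rw [e1]
    simp only [ha, hb, if_true]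
    ring
  · intro i _
    by_cases hi : i = 0
    · subst hi; simp only [ha, hb, if_true]; linarith
    · simp only [ha, hb, hi, if_false]
      linarith [abs_nonneg R]

/-- (COL) for the half space -/
theorem collar_halfSpace (d : ℕ) [NeZero d] (R : ℝ) : ∃ C : ℝ, 0 ≤ C ∧ ∀ s : ℝ, 0 < s →
    volume {x : EuclideanSpace ℝ (Fin d) | ‖x‖ ≤ R ∧ x ∈ range (𝓡∂ d) ∧
      ¬ closedBall x s ⊆ interior (range (𝓡∂ d))} ≤ ENNReal.ofReal (C * s) := by
  obtain ⟨C, hC0, hC⟩ := slab_volume d R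
  refine ⟨C * 2, by positivity, fun s hs => ?_⟩
  refine (measure_mono ?_).trans ((hC (2 * s) (by linarith)).trans (le_of_eq (by ring_nf)))
  rintro x ⟨h1, h2, h3⟩
  rw [range_modelWithCornersEuclideanHalfSpace] at h2
  rw [interior_range_modelWithCornersEuclideanHalfSpace, not_subset] at h3
  obtain ⟨y, hy, hy2⟩ := h3
  rw [mem_ofPred_eq, not_lt] at hy2
  refine ⟨h1, h2, ?_⟩
  have h4 : |y 0 - x 0| ≤ s := by
    have := PiLp.norm_apply_le (y - x) (0 : Fin d)
    rw [PiLp.sub_apply, Real.norm_eq_abs] at this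
    exact this.trans (by rwa [← dist_eq_norm])
  have := (abs_le.mp h4).1
  linarith

/-- (COL) without boundary -/
theorem collar_euclidean (d : ℕ) (R : ℝ) : ∃ C : ℝ, 0 ≤ C ∧ ∀ s : ℝ, 0 < s →
    volume {x : EuclideanSpace ℝ (Fin d) | ‖x‖ ≤ R ∧ x ∈ range (𝓡 d) ∧
      ¬ closedBall x s ⊆ interior (range (𝓡 d))} ≤ ENNReal.ofReal (C * s) := by
  refine ⟨0, le_rfl, fun s _ => ?_⟩
  have : {x : EuclideanSpace ℝ (Fin d) | ‖x‖ ≤ R ∧ x ∈ range (𝓡 d) ∧
      ¬ closedBall x s ⊆ interior (range (𝓡 d))} = ∅ := by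
    ext x
    simp
  rw [this]
  simp

end Vale.Agent.P109.H742
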