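import Vale.Agent.P109.H703.Thr
import Mathlib.Geometry.Manifold.PartitionOfUnity

/-! Approximation of a measurable coding by thresholds of smooth functions (block S4: AL). -/

open MeasureTheory Set
open scoped ContDiff Manifold

namespace Vale.Agent.P109.H742

/-- (AL) -/
theorem exists_alpha {d : ℕ} {H : Type} [TopologicalSpace H]
    (I : ModelWithCorners ℝ (EuclideanSpace ℝ (Fin d)) H)
    {M : Type} [TopologicalSpace M] [ChartedSpace H M] [IsManifold I ∞ M] [T2Space M]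
    [SecondCountableTopology M] [CompactSpace M] [MeasurableSpace M] [BorelSpace M]
    (ν : Measure M) [IsProbabilityMeasure ν] {A : Type} [Fintype A] [Nonempty A]
    (β : M → A) (hβ : ∀ a, MeasurableSet (β ⁻¹' {a})) {ε : ℝ} (hε : 0 < ε) :
    ∃ (L : ℕ) (u : Fin L → M → ℝ) (θ : Fin L → ℝ) (sy : (Fin L → Prop) → A),
      (∀ l, ContMDiff I 𝓘(ℝ, ℝ) ∞ (u l)) ∧
      (∀ l, ∃ C : ℝ, 0 ≤ C ∧ ∀ e : ℝ, 0 < e → ν {z | |u l z - θ l| ≤ e} ≤ ENNReal.ofReal (C * e)) ∧
      ν {z | sy (fun l => θ l < u l z) ≠ β z} ≤ ENNReal.ofReal ε := by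
  classical
  set N : ℕ := Fintype.card A with hN
  have hNpos : 0 < N := Fintype.card_pos
  have hδ : ENNReal.ofReal (ε / N) ≠ 0 := by
    rw [Ne, ENNReal.ofReal_eq_zero, not_le]
    positivity
  have hK : ∀ a : A, ∃ F, F ⊆ β ⁻¹' {a} ∧ IsClosed F ∧ ν ((β ⁻¹' {a}) \ F) <
      ENNReal.ofReal (ε / N) := fun a =>
    (hβ a).exists_isClosed_sdiff_lt (measure_ne_top _ _) hδ
  choose K hKsub hKcl hKm using hK
  have hdisj : ∀ a b, a ≠ b → Disjoint (K a) (K b) := by
    intro a b hab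
    rw [Set.disjoint_left]
    intro z h1 h2
    exact hab ((hKsub a h1).symm.trans (hKsub b h2))
  have hf : ∀ a : A, ∃ f : M → ℝ, ContMDiff I 𝓘(ℝ, ℝ) ∞ f ∧ (∀ b, b ≠ a → ∀ z ∈ K b, f z = 0) ∧
      (∀ z ∈ K a, f z = 1) := by
    intro a
    have hcl : IsClosed (⋃ b ∈ {b : A | b ≠ a}, K b) :=
      (Set.toFinite {b : A | b ≠ a}).isClosed_biUnion fun b _ => hKcl b
    have hd : Disjoint (⋃ b ∈ {b : A | b ≠ a}, K b) (K a) := by
      rw [Set.disjoint_iUnion₂_left]
      intro b hb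
      exact hdisj b a hb
    obtain ⟨f, h1, h2, -⟩ := exists_contMDiffMap_zero_one_of_isClosed (n := (⊤ : ℕ∞)) I hcl (hKcl a) hd
    refine ⟨f, f.contMDiff, ?_, ?_⟩
    · intro b hb z hz
      exact h1 (mem_biUnion (show b ∈ {b : A | b ≠ a} from hb) hz)
    · intro z hz
      exact h2 hz
  choose f hfs hf0 hf1 using hf
  have hth : ∀ a : A, ∃ t ∈ Ioo (1 / 4 : ℝ) (1 / 2), ∃ C : ℝ, 0 ≤ C ∧ ∀ e : ℝ, 0 < e →
      ν {z | |f a z - t| ≤ e} ≤ ENNReal.ofReal (C * e) := fun a =>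
    H703.exists_threshold ν (hfs a).continuous.measurable (by norm_num)
  choose t ht C hC0 hC using hth
  let eq : Fin N ≃ A := (Fintype.equivFin A).symm
  let sy : (Fin N → Prop) → A := fun p =>
    if h : ∃ a, ∀ l, p l ↔ eq l = a then h.choose else Classical.arbitrary A
  have hsy : ∀ a : A, ∀ p : Fin N → Prop, (∀ l, p l ↔ eq l = a) → sy p = a := by
    intro a p hp
    have hex : ∃ a, ∀ l, p l ↔ eq l = a := ⟨a, hp⟩
    show (if h : ∃ a, ∀ l, p l ↔ eq l = a then h.choose else Classical.arbitrary A) = a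
    rw [dif_pos hex]
    have h1 := hex.choose_spec (eq.symm hex.choose)
    have h2 := (hp (eq.symm hex.choose)).1 (h1.2 (by simp))
    rw [Equiv.apply_symm_apply] at h2
    exact h2
  refine ⟨N, fun l => f (eq l), fun l => t (eq l), sy, fun l => hfs _,
    fun l => ⟨C (eq l), hC0 _, hC _⟩, ?_⟩
  have hgood : ∀ a, ∀ z ∈ K a, sy (fun l => t (eq l) < f (eq l) z) = a := by
    intro a z hz
    refine hsy a _ fun l => ?_
    constructor
    · intro hlt
      by_contra hne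
      rw [hf0 (eq l) a (Ne.symm hne) z hz] at hlt
      linarith [(ht (eq l)).1]
    · intro hl
      show t (eq l) < f (eq l) z
      rw [hl, hf1 a z hz]
      linarith [(ht a).2]
  have hsub : {z | sy (fun l => t (eq l) < f (eq l) z) ≠ β z} ⊆
      ⋃ a : A, ((β ⁻¹' {a}) \ K a) := by
    intro z hz
    rw [mem_iUnion]
    refine ⟨β z, rfl, fun hzK => hz ?_⟩
    exact hgood (β z) z hzK
  calc ν {z | sy (fun l => t (eq l) < f (eq l) z) ≠ β z}
      ≤ ν (⋃ a : A, ((β ⁻¹' {a}) \ K a)) := measure_mono hsub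
    _ ≤ ∑ a : A, ν ((β ⁻¹' {a}) \ K a) := measure_iUnion_fintype_le _ _
    _ ≤ ∑ _a : A, ENNReal.ofReal (ε / N) := Finset.sum_le_sum fun a _ => (hKm a).le
    _ = ENNReal.ofReal ε := by
        rw [Finset.sum_const, Finset.card_univ, nsmul_eq_mul, ← hN,
          ← ENNReal.ofReal_natCast, ← ENNReal.ofReal_mul (by positivity)]
        congr 1
        field_simp

end Vale.Agent.P109.H742
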