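import Mathlib.Geometry.Manifold.Diffeomorph
import Mathlib.Geometry.Manifold.ContMDiff.Atlas
import Mathlib.Analysis.InnerProductSpace.PiL2

/-! A diffeomorphism in charts (block S4: TRANS). -/

open Set
open scoped ContDiff Manifold

namespace Vale.Agent.P109.H742

variable {d : ℕ} {H : Type} [TopologicalSpace H]
  (I : ModelWithCorners ℝ (EuclideanSpace ℝ (Fin d)) H)
  {M : Type} [TopologicalSpace M] [ChartedSpace H M]

/-- Points of a chart whose image is in an open set: relatively open in `range I`. -/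
theorem exists_open_chart_preimage (c : M) {W : Set M} (hW : IsOpen W) :
    ∃ V : Set (EuclideanSpace ℝ (Fin d)), IsOpen V ∧
      V ∩ range I = (extChartAt I c).target ∩ (extChartAt I c).symm ⁻¹' W := by
  refine ⟨I.symm ⁻¹' ((chartAt H c).target ∩ (chartAt H c).symm ⁻¹' W),
    ((chartAt H c).isOpen_inter_preimage_symm hW).preimage I.continuous_symm, ?_⟩
  rw [extChartAt_target]
  ext x
  simp only [mem_inter_iff, mem_preimage, extChartAt, mfld_simps]
  tauto

theorem exists_open_target (c : M) :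
    ∃ V : Set (EuclideanSpace ℝ (Fin d)), IsOpen V ∧ V ∩ range I = (extChartAt I c).target := by
  obtain ⟨V, h1, h2⟩ := exists_open_chart_preimage I c isOpen_univ
  exact ⟨V, h1, by rw [h2]; simp⟩

variable [IsManifold I ∞ M]

/-- A smooth function in a chart. -/
theorem contDiffOn_comp_symm (c : M) {g : M → ℝ} (hg : ContMDiff I 𝓘(ℝ, ℝ) ∞ g) :
    ContDiffOn ℝ ∞ (g ∘ (extChartAt I c).symm) (extChartAt I c).target := by
  rw [← contMDiffOn_iff_contDiffOn]
  exact hg.comp_contMDiffOn (contMDiffOn_extChartAt_symm c)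

/-- A smooth map in charts. -/
theorem contDiffOn_chart_comp (c c' : M) {φ : M → M} (hφ : ContMDiff I I ∞ φ) :
    ContDiffOn ℝ ∞ (extChartAt I c' ∘ φ ∘ (extChartAt I c).symm)
      ((extChartAt I c).target ∩ (extChartAt I c).symm ⁻¹' (φ ⁻¹' (chartAt H c').source)) := by
  rw [← contMDiffOn_iff_contDiffOn]
  have h1 : ContMDiffOn 𝓘(ℝ, EuclideanSpace ℝ (Fin d)) I ∞ (φ ∘ (extChartAt I c).symm)
      ((extChartAt I c).target ∩ (extChartAt I c).symm ⁻¹' (φ ⁻¹' (chartAt H c').source)) :=
    (hφ.comp_contMDiffOn (contMDiffOn_extChartAt_symm c)).mono inter_subset_left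
  exact (contMDiffOn_extChartAt (x := c')).comp h1 (fun x hx => hx.2)

/-- (TRANS) -/
theorem trans_charts (Φ : M ≃ₘ^∞⟮I, I⟯ M) (c c' : M) :
    ∃ V V' : Set (EuclideanSpace ℝ (Fin d)), IsOpen V ∧ IsOpen V' ∧
      V ∩ range I = (extChartAt I c).target ∩
        (extChartAt I c).symm ⁻¹' (Φ ⁻¹' (chartAt H c').source) ∧
      V' ∩ range I = (extChartAt I c').target ∩
        (extChartAt I c').symm ⁻¹' (Φ.symm ⁻¹' (chartAt H c).source) ∧
      ContDiffOn ℝ ∞ (extChartAt I c' ∘ Φ ∘ (extChartAt I c).symm) (V ∩ range I) ∧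
      ContDiffOn ℝ ∞ (extChartAt I c ∘ Φ.symm ∘ (extChartAt I c').symm) (V' ∩ range I) ∧
      MapsTo (extChartAt I c' ∘ Φ ∘ (extChartAt I c).symm) (V ∩ range I) (V' ∩ range I) ∧
      ∀ y ∈ V ∩ range I, (extChartAt I c ∘ Φ.symm ∘ (extChartAt I c').symm)
        ((extChartAt I c' ∘ Φ ∘ (extChartAt I c).symm) y) = y := by
  obtain ⟨V, hV, hV2⟩ := exists_open_chart_preimage I c
    (W := Φ ⁻¹' (chartAt H c').source) ((chartAt H c').open_source.preimage Φ.continuous)
  obtain ⟨V', hV', hV'2⟩ := exists_open_chart_preimage I c'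
    (W := Φ.symm ⁻¹' (chartAt H c).source)
    ((chartAt H c).open_source.preimage Φ.symm.continuous)
  have key : ∀ y ∈ (extChartAt I c).target ∩
      (extChartAt I c).symm ⁻¹' (Φ ⁻¹' (chartAt H c').source),
      (extChartAt I c').symm ((extChartAt I c' ∘ Φ ∘ (extChartAt I c).symm) y) =
        Φ ((extChartAt I c).symm y) := by
    rintro y ⟨_, hy2⟩
    exact (extChartAt I c').left_inv (by rw [extChartAt_source]; exact hy2)
  refine ⟨V, V', hV, hV', hV2, hV'2, ?_, ?_, ?_, ?_⟩
  · rw [hV2]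
    exact contDiffOn_chart_comp I c c' Φ.contMDiff
  · rw [hV'2]
    exact contDiffOn_chart_comp I c' c Φ.symm.contMDiff
  · rw [hV2, hV'2]
    intro y hy
    have hy2 : Φ ((extChartAt I c).symm y) ∈ (extChartAt I c').source := by
      rw [extChartAt_source]; exact hy.2
    refine ⟨(extChartAt I c').map_source hy2, ?_⟩
    rw [mem_preimage, key y hy, mem_preimage, Diffeomorph.symm_apply_apply, ← extChartAt_source I]
    exact (extChartAt I c).map_target hy.1
  · rw [hV2]
    intro y hy
    show extChartAt I c (Φ.symm ((extChartAt I c').symm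
      ((extChartAt I c' ∘ Φ ∘ (extChartAt I c).symm) y))) = y
    rw [key y hy, Diffeomorph.symm_apply_apply]
    exact (extChartAt I c).right_inv hy.1

end Vale.Agent.P109.H742
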